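import Crest.Agent.N337.Basic
import Crest.Agent.N337.KV.Defs
import Crest.Agent.R339.Trot716
import Crest.Agent.N337.BasicS
import Crest.Agent.N337.Slot.Sym

-- ▼ part N337/KV/Lim
section

/-! # Row 337, part KV: Trotter and Riemann limits -/

set_option autoImplicit false
set_option linter.unusedSectionVars false

namespace Crest.Agent.N337.KV

open Crest.MathPhysics.SpinModel Filter Topology Crest.Agent.N337.Slot NormedSpace
open Crest.Agent.R339

namespace Lm

theorem riemann {f : ℝ → ℝ} (hf : Continuous f) {β : ℝ} (hβ : 0 < β) :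
    Tendsto (fun M : ℕ => β / M * ∑ k ∈ Finset.Ico 1 M, f (k * (β / M))) atTop
      (𝓝 (∫ t in (0 : ℝ)..β, f t)) := by
  have h0 : Tendsto (fun M : ℕ => β / M) atTop (𝓝 0) :=
    tendsto_const_div_atTop_nhds_zero_nat β
  have h1 : Tendsto (fun M : ℕ => β / M * ∑ k ∈ Finset.range M, f (k * (β / M))) atTop
      (𝓝 (∫ t in (0 : ℝ)..β, f t)) := by
    rw [Metric.tendsto_atTop']
    intro ε hε
    obtain ⟨δ, hδ, hu⟩ := Metric.uniformContinuousOn_iff.1
      (isCompact_Icc.uniformContinuousOn_of_continuous (hf.continuousOn (s := Set.Icc 0 β)))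
      (ε / (2 * β)) (by positivity)
    obtain ⟨N, hN⟩ := eventually_atTop.1 (h0.eventually (gt_mem_nhds hδ))
    refine ⟨N, fun M hM => ?_⟩
    have hM0 : (0 : ℝ) < M := by exact_mod_cast (Nat.zero_le N).trans_lt hM
    have hd : 0 < β / M := by positivity
    have e := intervalIntegral.sum_integral_adjacent_intervals (μ := MeasureTheory.volume)
      (f := f) (a := fun k : ℕ => k * (β / M)) (n := M) fun k _ => hf.intervalIntegrable _ _
    simp only [Nat.cast_zero, zero_mul, mul_div_cancel₀ β hM0.ne'] at e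
    rw [Real.dist_eq, ← e, Finset.mul_sum, ← Finset.sum_sub_distrib]
    refine (Finset.abs_sum_le_sum_abs _ _).trans_lt ?_
    refine (Finset.sum_le_card_nsmul _ _ (ε / (2 * β) * (β / M)) fun k hk => ?_).trans_lt ?_
    · have hk : ((k + 1 : ℕ) : ℝ) ≤ M := by exact_mod_cast Finset.mem_range.1 hk
      have hle : (k : ℝ) * (β / M) ≤ (k + 1 : ℕ) * (β / M) := by push_cast; nlinarith
      have hle' : ((k + 1 : ℕ) : ℝ) * (β / M) ≤ β := by
        calc _ ≤ M * (β / M) := by gcongr
          _ = β := by field_simp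
      have e2 : β / M * f (k * (β / M)) =
          ∫ _ in (k * (β / M))..((k + 1 : ℕ) * (β / M)), f (k * (β / M)) := by
        rw [intervalIntegral.integral_const]; push_cast; simp only [smul_eq_mul]; ring
      rw [e2, ← intervalIntegral.integral_sub (by simp) (hf.intervalIntegrable _ _),
        ← Real.norm_eq_abs]
      refine (intervalIntegral.norm_integral_le_of_norm_le_const (C := ε / (2 * β))
        fun t ht => ?_).trans (le_of_eq ?_)
      · rw [Set.uIoc_of_le hle] at ht
        have a1 : 0 ≤ (k : ℝ) * (β / M) := by positivity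
        refine (hu _ ⟨a1, hle.trans hle'⟩ t ⟨a1.trans ht.1.le, ht.2.trans hle'⟩ ?_).le
        have := ht.2
        push_cast at this
        rw [Real.dist_eq, abs_sub_comm, abs_of_nonneg (sub_nonneg.2 ht.1.le)]
        linarith [hN M hM.le]
      · push_cast
        rw [show ((k : ℝ) + 1) * (β / M) - k * (β / M) = β / M by ring, abs_of_pos hd]
    · rw [Finset.card_range, nsmul_eq_mul]
      have : (M : ℝ) * (ε / (2 * β) * (β / M)) = ε / 2 := by field_simp
      linarith
  have h2 := h1.sub (h0.mul_const (f 0))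
  rw [zero_mul, sub_zero] at h2
  refine h2.congr' ?_
  filter_upwards [eventually_gt_atTop 0] with M hM
  rw [Finset.range_eq_Ico, Finset.sum_eq_sum_Ico_succ_bot hM]
  simp; ring

section banach
variable {𝔸 : Type*} [NormedRing 𝔸] [NormedAlgebra ℝ 𝔸] [CompleteSpace 𝔸] [NormOneClass 𝔸]

theorem unif {G : ℝ → 𝔸} {Y : 𝔸} (h0 : G 0 = 1) (hG : HasDerivAt G Y 0) {β : ℝ} (hβ : 0 < β)
    {ε : ℝ} (hε : 0 < ε) :
    ∀ᶠ M : ℕ in atTop, ∀ k ≤ M, ‖G (β / M) ^ k - exp ((k * (β / M)) • Y)‖ ≤ ε := by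
  let _ : NormedAlgebra ℚ 𝔸 := NormedAlgebra.restrictScalars ℚ ℝ 𝔸
  have hk : Tendsto (fun M : ℕ => β / M) atTop (𝓝[≠] (0 : ℝ)) :=
    tendsto_nhdsWithin_iff.2 ⟨tendsto_const_div_atTop_nhds_zero_nat β, by
      filter_upwards [eventually_gt_atTop 0] with M hM
      have : (0 : ℝ) < β / M := by positivity
      exact this.ne'⟩
  have h1 := hG.tendsto_slope_zero.comp hk
  have h2 := (Trot.hasDerivAt_exp_smul_zero Y).tendsto_slope_zero.comp hk
  have h3 := ((h1.sub h2).norm).const_mul (β * Real.exp (β * (‖Y‖ + 1)))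
  rw [sub_self, norm_zero, mul_zero] at h3
  filter_upwards [h3.eventually (gt_mem_nhds hε), h1.norm.eventually_lt_const (lt_add_one ‖Y‖),
    eventually_gt_atTop 0] with M a1 a2 hM k hk
  have hM0 : (0 : ℝ) < M := by exact_mod_cast hM
  have hd : 0 < β / M := by positivity
  simp only [Function.comp, zero_add, h0, zero_smul, exp_zero, ← smul_sub, sub_sub_sub_cancel_right,
    norm_smul, norm_inv, Real.norm_of_nonneg hd.le] at a1 a2
  have b1 : ‖G (β / M)‖ ≤ Real.exp (β / M * (‖Y‖ + 1)) := by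
    rw [inv_mul_lt_iff₀ hd] at a2
    have := norm_add_le (G (β / M) - 1) 1
    rw [sub_add_cancel, norm_one] at this
    linarith [Real.add_one_le_exp (β / M * (‖Y‖ + 1))]
  have b2 : ‖exp ((β / M) • Y)‖ ≤ Real.exp (β / M * (‖Y‖ + 1)) := by
    refine (Trot.norm_exp_le _).trans (Real.exp_le_exp.2 ?_)
    rw [norm_smul, Real.norm_of_nonneg hd.le]
    gcongr; linarith
  have e : exp ((k * (β / M)) • Y) = exp ((β / M) • Y) ^ k := by
    rw [← exp_nsmul, mul_smul, Nat.cast_smul_eq_nsmul]
  rw [e]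
  refine (Trot.norm_pow_sub_pow_le _ _ _ b1 b2 (Real.one_le_exp (by positivity)) k).trans
    (le_trans ?_ a1.le)
  have hkM : (k : ℝ) ≤ M := by exact_mod_cast hk
  rw [← Real.exp_nat_mul, ← mul_assoc (β * _), mul_comm β (Real.exp _), mul_assoc _ β,
    show β * (β / M)⁻¹ = M by field_simp, mul_comm (k : ℝ), ← mul_assoc (k : ℝ)]
  have : (k : ℝ) * (β / M) ≤ β :=
    calc (k : ℝ) * (β / M) ≤ M * (β / M) := by gcongr
      _ = β := by field_simp
  gcongr

theorem lim_one {G : ℝ → 𝔸} {Y : 𝔸} (h0 : G 0 = 1) (hG : HasDerivAt G Y 0) {β : ℝ} (hβ : 0 < β) :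
    Tendsto (fun M : ℕ => G (β / M) ^ M) atTop (𝓝 (exp (β • Y))) := by
  rw [Metric.tendsto_nhds]
  intro ε hε
  filter_upwards [unif h0 hG hβ (half_pos hε), eventually_gt_atTop 0] with M h hM
  have := h M le_rfl
  have hM0 : (M : ℝ) ≠ 0 := by positivity
  rw [mul_div_cancel₀ β hM0] at this
  rw [dist_eq_norm]; linarith

theorem lim_two {G : ℝ → 𝔸} {Y : 𝔸} (h0 : G 0 = 1) (hG : HasDerivAt G Y 0) {β : ℝ} (hβ : 0 < β)
    (τ : 𝔸 →L[ℝ] ℝ) (A B : 𝔸) :
    Tendsto (fun M : ℕ => β / M * ∑ k ∈ Finset.Ico 1 M,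
      τ (A * G (β / M) ^ k * B * G (β / M) ^ (M - k))) atTop
      (𝓝 (∫ t in (0 : ℝ)..β, τ (A * exp (t • Y) * B * exp ((β - t) • Y)))) := by
  let _ : NormedAlgebra ℚ 𝔸 := NormedAlgebra.restrictScalars ℚ ℝ 𝔸
  have hc : Continuous fun t : ℝ => exp (t • Y) :=
    (exp_continuous (𝔸 := 𝔸)).comp (continuous_id.smul continuous_const)
  have hc' : Continuous fun t : ℝ => exp ((β - t) • Y) := hc.comp (continuous_const.sub continuous_id)
  have h1 := riemann (f := fun t => τ (A * exp (t • Y) * B * exp ((β - t) • Y)))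
    (τ.continuous.comp (((continuous_const.mul hc).mul continuous_const).mul hc')) hβ
  refine h1.congr_dist ?_
  rw [Metric.tendsto_nhds]
  intro ε hε
  set K := Real.exp (β * ‖Y‖) with hK
  set C := β * (‖τ‖ * (‖A‖ * ‖B‖ * (2 * K + 1))) with hC
  have hC0 : 0 ≤ C := by positivity
  set η := min 1 (ε / (C + 1)) with hη
  have hη0 : 0 < η := by positivity
  filter_upwards [unif h0 hG hβ hη0, eventually_gt_atTop 0] with M h hM
  have hM0 : (0 : ℝ) < M := by exact_mod_cast hM
  have hd : 0 < β / M := by positivity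
  have hb : ∀ k ≤ M, ‖exp ((k * (β / M)) • Y)‖ ≤ K := fun k hk => by
    refine (Trot.norm_exp_le _).trans (Real.exp_le_exp.2 ?_)
    have hkM : (k : ℝ) ≤ M := by exact_mod_cast hk
    rw [norm_smul, Real.norm_of_nonneg (by positivity)]
    gcongr
    calc (k : ℝ) * (β / M) ≤ M * (β / M) := by gcongr
      _ = β := by field_simp
  rw [dist_zero_right, Real.norm_of_nonneg dist_nonneg, Real.dist_eq, ← mul_sub,
    ← Finset.sum_sub_distrib, abs_mul, abs_of_pos hd]
  have key : ∀ k ∈ Finset.Ico 1 M,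
      |τ (A * exp ((k * (β / M)) • Y) * B * exp ((β - k * (β / M)) • Y)) -
        τ (A * G (β / M) ^ k * B * G (β / M) ^ (M - k))| ≤
      ‖τ‖ * (‖A‖ * ‖B‖ * (2 * K + 1)) * η := by
    intro k hk
    have hk := (Finset.mem_Ico.1 hk).2.le
    have e : β - k * (β / M) = (M - k : ℕ) * (β / M) := by
      rw [Nat.cast_sub hk]; field_simp
    rw [e, ← map_sub, mul_assoc ‖τ‖, ← Real.norm_eq_abs]
    refine (τ.le_opNorm _).trans (mul_le_mul_of_nonneg_left ?_ (norm_nonneg _))
    have a1 := h k hk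
    have a2 := h (M - k) (Nat.sub_le _ _)
    have a3 := hb k hk
    have a4 := hb (M - k) (Nat.sub_le _ _)
    generalize exp ((k * (β / M)) • Y) = P' at *
    generalize exp ((((M - k : ℕ) : ℝ) * (β / M)) • Y) = Q' at *
    generalize G (β / M) ^ k = P at *
    generalize G (β / M) ^ (M - k) = Q at *
    have a5 : ‖Q‖ ≤ K + 1 := by
      have := norm_add_le (Q - Q') Q'
      rw [sub_add_cancel] at this
      linarith [min_le_left 1 (ε / (C + 1))]
    rw [norm_sub_rev,
      show A * P * B * Q - A * P' * B * Q' = A * (P - P') * B * Q + A * P' * B * (Q - Q') by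
        noncomm_ring]
    have n4 : ∀ a b c d : 𝔸, ‖a * b * c * d‖ ≤ ‖a‖ * ‖b‖ * ‖c‖ * ‖d‖ := fun a b c d =>
      (norm_mul_le _ _).trans (by gcongr; exact (norm_mul_le _ _).trans (by gcongr; exact norm_mul_le _ _))
    calc _ ≤ ‖A‖ * ‖P - P'‖ * ‖B‖ * ‖Q‖ + ‖A‖ * ‖P'‖ * ‖B‖ * ‖Q - Q'‖ :=
          (norm_add_le _ _).trans (add_le_add (n4 _ _ _ _) (n4 _ _ _ _))
      _ ≤ ‖A‖ * η * ‖B‖ * (K + 1) + ‖A‖ * K * ‖B‖ * η := by gcongr
      _ = _ := by ring
  calc _ ≤ β / M * (M * (‖τ‖ * (‖A‖ * ‖B‖ * (2 * K + 1)) * η)) := by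
        gcongr
        refine (Finset.abs_sum_le_sum_abs _ _).trans
          ((Finset.sum_le_card_nsmul _ _ _ key).trans ?_)
        rw [nsmul_eq_mul]
        gcongr
        simp
    _ = C * η := by rw [hC]; field_simp
    _ ≤ C * (ε / (C + 1)) := by gcongr; exact min_le_right _ _
    _ < ε := by rw [← mul_div_assoc, div_lt_iff₀ (by positivity)]; nlinarith

theorem deriv_list {ι : Type*} (L : List ι) (a : ι → 𝔸) :
    HasDerivAt (fun d : ℝ => (L.map fun q => 1 + d • a q).reverse.prod) (L.map a).sum 0 := by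
  induction L with
  | nil => simpa using hasDerivAt_const (0 : ℝ) (1 : 𝔸)
  | cons q L ih =>
    have h1 : HasDerivAt (fun d : ℝ => 1 + d • a q) (a q) 0 := by
      simpa using ((hasDerivAt_id (0 : ℝ)).smul_const (a q)).const_add 1
    have := ih.fun_mul h1
    simpa [add_comm] using this
end banach

section mat
variable {m k l : Type} [Fintype m] [Fintype k] [Fintype l]

theorem cx_mul (A : Matrix m k ℝ) (B : Matrix k l ℝ) : cx (A * B) = cx A * cx B :=
  Matrix.map_mul (f := Complex.ofRealHom)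
theorem cx_trace (A : Matrix m m ℝ) : (cx A).trace.re = A.trace := by
  simp [Matrix.trace]

variable [DecidableEq m] [DecidableEq k]
theorem pow_mul_U {S : Type} [CommRing S] (U : Matrix m k S) (Ut : Matrix k m S)
    (F : Matrix m m S) (j : ℕ) : (U * Ut * F) ^ j * U = U * (Ut * F * U) ^ j := by
  induction j with
  | zero => simp
  | succ j ih => rw [pow_succ', pow_succ', Matrix.mul_assoc _ _ U, ih]; simp only [Matrix.mul_assoc]
theorem pow_succ_U {S : Type} [CommRing S] (U : Matrix m k S) (Ut : Matrix k m S)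
    (F : Matrix m m S) (j : ℕ) : (U * Ut * F) ^ (j + 1) = U * (Ut * F * U) ^ j * (Ut * F) := by
  rw [pow_succ, ← pow_mul_U]; simp only [Matrix.mul_assoc]
theorem trace_red {S : Type} [CommRing S] {U : Matrix m k S} {Ut : Matrix k m S}
    (F : Matrix m m S) {Z' : Matrix m m S} {Z : Matrix k k S}
    (h : U * Z = Z' * U) {j : ℕ} (hU : Ut * U = 1) (hj : 0 < j) :
    (Z' * (U * Ut * F) ^ j).trace = (Z * (Ut * F * U) ^ j).trace := by
  obtain ⟨j, rfl⟩ := Nat.exists_eq_succ_of_ne_zero hj.ne'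
  have _ := hU
  rw [pow_succ_U, ← Matrix.mul_assoc Z', ← Matrix.mul_assoc Z', ← h, Matrix.mul_assoc,
    Matrix.mul_assoc, Matrix.trace_mul_comm, pow_succ]
  simp only [Matrix.mul_assoc]
end mat
end Lm

open Lm in
open scoped Matrix.Norms.Operator in
theorem lim : LimStmt := by
  intro X _ _ n J β h c0 U hβ hU hH V
  set r : X × Fin n → X × Fin n → ℝ := fun u v => J u.1 v.1 / 2 with hr
  let φ : BOp (X × Fin n) →+* Matrix (X × Fin n → Bool) (X × Fin n → Bool) ℂ :=
    Complex.ofRealHom.mapMatrix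
  have hφ : ∀ A, φ A = cx A := fun _ => rfl
  have hU' : cx U.transpose * cx U = 1 := by
    rw [← cx_mul, hU]; exact Matrix.map_one _ (by simp) (by simp)
  let F : ℝ → BOp (X × Fin n) := fun d => fug (Real.exp (-(d * h))) * sweep r d
  let ψ : BOp (X × Fin n) →ₗ[ℝ] Op X n :=
    { toFun := fun A => cx U.transpose * cx A * cx U
      map_add' := fun A B => by
        rw [← hφ, map_add, Matrix.mul_add, Matrix.add_mul]; rfl
      map_smul' := fun c A => by
        have : cx (c • A) = c • cx A := by ext i j; simp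
        rw [this, Matrix.mul_smul, Matrix.smul_mul]; rfl }
  have hF0 : F 0 = 1 := by
    have : ∀ x y : X × Fin n, step x y 0 = 1 := fun x y => by simp [step]
    simp [F, fug, sweep, this]
  have hF : HasDerivAt F (gen r h) 0 := by
    have h1 : HasDerivAt (fun d => (fug (Real.exp (-(d * h))) : BOp (X × Fin n)))
        (-(h • Matrix.diagonal fun σ => (cnt σ : ℝ))) 0 := by
      have h2 : HasDerivAt (fun d => fun σ : X × Fin n → Bool => Real.exp (-(d * h)) ^ cnt σ)
          (fun σ => -(h * cnt σ)) 0 := hasDerivAt_pi.2 fun σ => by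
        have := (((hasDerivAt_id (0 : ℝ)).mul_const h).neg.exp).fun_pow (cnt σ)
        simpa [mul_comm] using this
      have := (LinearMap.toContinuousLinearMap (Matrix.diagonalLinearMap (X × Fin n → Bool) ℝ
        ℝ)).hasFDerivAt.comp_hasDerivAt (0 : ℝ) h2
      refine HasDerivAt.congr_deriv this ?_
      change Matrix.diagonal _ = _
      ext i j
      by_cases e : i = j <;> simp [e]
    have h2 := deriv_list (prs (X × Fin n)) fun q => (r q.1 q.2 / 2) • (swp q.1 q.2 - 1)
    have e : ∀ d, sweep r d = ((prs (X × Fin n)).map fun q =>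
        1 + d • (r q.1 q.2 / 2) • (swp q.1 q.2 - 1)).reverse.prod := fun d => by
      unfold sweep
      congr 3
      funext q
      rw [step, smul_smul, smul_sub, sub_smul, one_smul, mul_div_assoc]; abel
    have h3 := h1.fun_mul h2
    simp only [← e] at h3
    refine HasDerivAt.congr_deriv h3 ?_
    rw [e 0, prs, Finset.sum_map_toList, Fintype.sum_prod_type, gen]
    simp [fug]; abel
  let G : ℝ → Op X n := fun d => Real.exp (-(d * c0)) • ψ (F d)
  have hψ1 : ψ 1 = 1 := by
    change cx U.transpose * φ 1 * cx U = 1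
    rw [map_one, Matrix.mul_one, hU']
  have hG0 : G 0 = 1 := by simp [G, hF0, hψ1]
  have hG : HasDerivAt G (-hamF n J h) 0 := by
    have h1 := (LinearMap.toContinuousLinearMap ψ).hasFDerivAt.comp_hasDerivAt (0 : ℝ) hF
    have h2 := (((hasDerivAt_id (0 : ℝ)).mul_const c0).neg.exp).smul h1
    refine HasDerivAt.congr_deriv h2 ?_
    have h3 : ψ (c0 • 1 - gen r h) = hamF n J h := by
      change cx U.transpose * cx (c0 • 1 - gen r h) * cx U = _
      rw [Matrix.mul_assoc, ← hH, ← Matrix.mul_assoc, hU', Matrix.one_mul]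
    rw [← h3, map_sub, map_smul, hψ1]
    simp [hF0, hψ1]
    exact (sub_eq_add_neg (ψ (gen r h)) _).symm
  have hW : ∀ t : ℝ, exp (t • -hamF n J h) = W n J h t := fun t => by
    rw [W]; congr 1; ext i j; simp
  let τ : Op X n →L[ℝ] ℝ := LinearMap.toContinuousLinearMap
    (Complex.reLm ∘ₗ Matrix.traceLinearMap _ ℝ ℂ)
  have hτ : ∀ Z, τ Z = Z.trace.re := fun _ => rfl
  have hV : ∀ M, cx (V M) = cx U * cx U.transpose * cx (F (β / M)) := fun M => by
    rw [← cx_mul, ← cx_mul, ← Matrix.mul_assoc]; rfl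
  have hred : ∀ (M : ℕ) (Z : Op X n) (Z' : BOp (X × Fin n)), cx U * Z = cx Z' * cx U →
      ∀ j, 0 < j → (Z' * V M ^ j).trace = τ (Z * ψ (F (β / M)) ^ j) := by
    intro M Z Z' hZ j hj
    rw [← cx_trace, ← hφ, map_mul, map_pow, hφ, hφ, hV, trace_red _ hZ hU' hj]; rfl
  have hE : ∀ M : ℕ, 0 < M → Real.exp (-(β / M * c0)) ^ M = Real.exp (-(β * c0)) := fun M hM => by
    have : (M : ℝ) ≠ 0 := by positivity
    rw [← Real.exp_nat_mul]; congr 1; field_simp
  have h1 : ∀ (A : Op X n) (A' : BOp (X × Fin n)), cx U * A = cx A' * cx U →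
      Tendsto (fun M : ℕ => Real.exp (-(β * c0)) * (A' * V M ^ M).trace) atTop
        (𝓝 (A * W n J h β).trace.re) := by
    intro A A' hA
    have := (τ.continuous.tendsto _).comp ((lim_one hG0 hG hβ).const_mul A)
    erw [hW] at this
    refine this.congr' ?_
    filter_upwards [eventually_gt_atTop 0] with M hM
    rw [hred M A A' hA M hM, Function.comp, smul_pow, hE M hM, mul_smul_comm, map_smul,
      smul_eq_mul]
  have hZ := h1 1 1 (by rw [← hφ, map_one]; simp)
  simp only [one_mul] at hZ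
  have hZ0 := (Zp_pos (n := n) J β h).ne'
  refine ⟨fun A A' hA => ((h1 A A' hA).div hZ hZ0).congr fun M => ?_, fun A B A' B' hA hB => ?_⟩
  · exact mul_div_mul_left _ _ (Real.exp_ne_zero _)
  · have h2 := lim_two hG0 hG hβ τ A B
    replace h2 := h2.mono_right (le_of_eq (congrArg 𝓝 (intervalIntegral.integral_congr
      (g := fun t => (A * W n J h t * B * W n J h (β - t)).trace.re) fun t _ => by
        simp only [← hW]; rfl)))
    refine (h2.div hZ hZ0).congr' ?_
    filter_upwards [eventually_gt_atTop 0] with M hM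
    rw [Pi.div_apply, ← mul_div_mul_left _ (V M ^ M).trace (Real.exp_ne_zero (-(β * c0))),
      mul_left_comm, Finset.mul_sum _ _ (Real.exp _)]
    congr 2
    refine Finset.sum_congr rfl fun k hk => ?_
    obtain ⟨hk1, hk2⟩ := Finset.mem_Ico.1 hk
    rw [hred M (A * ψ (F (β / M)) ^ k * B) _ _ _ (Nat.sub_pos_of_lt hk2), ← hE M hM]
    · simp only [G, smul_pow, mul_smul_comm, smul_mul_assoc, smul_smul]
      rw [← pow_add, Nat.sub_add_cancel hk2.le]
      exact map_smul τ _ _
    · rw [← hφ (_ * B'), map_mul φ, map_mul φ, map_pow φ, hφ, hφ, hφ, hV, Matrix.mul_assoc _ _ (cx U),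
        ← hB, ← Matrix.mul_assoc, ← Matrix.mul_assoc, ← Matrix.mul_assoc, hA,
        Matrix.mul_assoc _ _ (cx U), pow_mul_U, Matrix.mul_assoc (cx A')]
      rfl

end Crest.Agent.N337.KV
end

-- ▼ part N337/Slot/Slot

/-!
# Row 337: `slot : SlotStmt`
-/

set_option autoImplicit false
set_option linter.unusedSectionVars false

namespace Crest.Agent.N337.Slot

open Crest.MathPhysics.SpinModel Matrix

namespace SL

variable {X : Type} [Fintype X] [DecidableEq X] {n : ℕ}

/-- number of down slots of the site `x`. -/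
def dn (η : X × Fin n → Bool) (x : X) : ℕ := cnt fun i => η (x, i)

theorem dn_le (η : X × Fin n → Bool) (x : X) : dn η x ≤ n :=
  (Finset.card_filter_le _ _).trans (Finset.card_fin n).le

theorem card_cnt (k : ℕ) :
    (Finset.univ.filter fun f : Fin n → Bool => cnt f = k).card = n.choose k := by
  have : n.choose k = (Finset.powersetCard k (Finset.univ : Finset (Fin n))).card := by simp
  rw [this]
  refine Finset.card_bij' (fun f _ => Finset.univ.filter fun i => f i = true)
    (fun s _ i => decide (i ∈ s)) (fun f hf => ?_) (fun s hs => ?_) (fun f _ => ?_) (fun s _ => ?_)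
  · exact Finset.mem_powersetCard.2 ⟨Finset.subset_univ _, (Finset.mem_filter.1 hf).2⟩
  · refine Finset.mem_filter.2 ⟨Finset.mem_univ _, ?_⟩
    rw [← (Finset.mem_powersetCard.1 hs).2, cnt]
    congr 1; ext i; simp
  · funext i; simp
  · ext i; simp

theorem sum_dn (F : X → ℕ → ℝ) :
    ∑ η : X × Fin n → Bool, ∏ x, F x (dn η x) = ∏ x, ∑ f : Fin n → Bool, F x (cnt f) := by
  rw [Finset.prod_univ_sum, Fintype.piFinset_univ]
  exact Fintype.sum_equiv (Equiv.curry X (Fin n) Bool) _ _ fun η => rfl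

theorem dn_update_ne (η : X × Fin n → Bool) {x y : X} (h : y ≠ x) (i : Fin n) (b : Bool) :
    dn (Function.update η (x, i) b) y = dn η y := by
  unfold dn
  congr 1
  funext j
  exact Function.update_of_ne (by simp [h]) _ _

theorem dn_update_true (η : X × Fin n → Bool) (x : X) (i : Fin n) (h : η (x, i) = false) :
    dn (Function.update η (x, i) true) x = dn η x + 1 := by
  unfold dn cnt
  rw [← Finset.card_insert_of_notMem (a := i) (by simp [h])]
  congr 1
  ext j
  by_cases hj : j = i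
  · subst hj; simp
  · simp [hj]

theorem dn_update_false (η : X × Fin n → Bool) (x : X) (i : Fin n) (h : η (x, i) = true) :
    dn (Function.update η (x, i) false) x = dn η x - 1 := by
  have := dn_update_true (Function.update η (x, i) false) x i (by simp)
  have e : Function.update η (x, i) true = η := by rw [← h, Function.update_eq_self]
  rw [Function.update_idem, e] at this
  omega

theorem sum_true (η : X × Fin n → Bool) (x : X) (c : ℝ) :
    ∑ i, (if η (x, i) = true then c else 0) = dn η x * c := by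
  rw [← Finset.sum_filter, Finset.sum_const, nsmul_eq_mul]; rfl

theorem sum_false (η : X × Fin n → Bool) (x : X) (c : ℝ) :
    ∑ i, (if η (x, i) = false then c else 0) = ((n : ℝ) - dn η x) * c := by
  have : ∀ i, (if η (x, i) = false then c else 0) = c - if η (x, i) = true then c else 0 :=
    fun i => by cases η (x, i) <;> simp
  simp only [this, Finset.sum_sub_distrib, sum_true]
  simp; ring

theorem dn_swap (η : X × Fin n → Bool) {u v : X × Fin n} (h : u.1 = v.1) (x : X) :
    dn (η ∘ Equiv.swap u v) x = dn η x := by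
  obtain ⟨y, i⟩ := u
  obtain ⟨y', j⟩ := v
  obtain rfl : y = y' := h
  unfold dn cnt
  by_cases hx : x = y
  · subst hx
    refine Finset.card_bij' (fun a _ => Equiv.swap i j a) (fun a _ => Equiv.swap i j a)
      (fun a ha => ?_) (fun a ha => ?_) (by simp) (by simp)
    all_goals
      have e : ∀ a, Equiv.swap (x, i) (x, j) (x, a) = (x, Equiv.swap i j a) := fun a =>
        (Prod.mk_right_injective x).swap_apply i j a
      simp only [Finset.mem_filter, Finset.mem_univ, true_and, Function.comp_apply, e,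
        Equiv.swap_apply_self] at ha ⊢
      exact ha
  · congr 1
    ext a
    simp only [Finset.mem_filter, Finset.mem_univ, true_and, Function.comp_apply]
    rw [Equiv.swap_apply_of_ne_of_ne (by simp [hx]) (by simp [hx])]

/-- a function invariant under the transpositions inside the sites depends only on `dn`. -/
theorem eq_of_dn (F : (X × Fin n → Bool) → ℝ)
    (hF : ∀ η u v, u.1 = v.1 → F (η ∘ Equiv.swap u v) = F η) (η' : X × Fin n → Bool) (m : ℕ) :
    ∀ η : X × Fin n → Bool, (Finset.univ.filter fun u => η u ≠ η' u).card = m →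
      (∀ x, dn η x = dn η' x) → F η = F η' := by
  induction m using Nat.strong_induction_on with
  | _ m ih =>
  intro η hm hd
  by_cases h0 : η = η'
  · rw [h0]
  obtain ⟨⟨x, i⟩, hu⟩ := Function.ne_iff.1 h0
  have hv : ∃ j, η (x, j) ≠ η' (x, j) ∧ η (x, j) ≠ η (x, i) := by
    by_contra hne
    push Not at hne
    have h1 := hd x
    unfold dn cnt at h1
    rcases hb : η (x, i) with _ | _
    · refine absurd h1 (Finset.card_lt_card ⟨fun a ha => ?_, fun hs => ?_⟩).ne
      · simp only [Finset.mem_filter, Finset.mem_univ, true_and] at ha ⊢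
        by_contra h2
        have := hne a (by rw [ha]; exact Ne.symm h2)
        rw [ha, hb] at this; exact absurd this (by simp)
      · have : η' (x, i) = true := by rw [hb] at hu; simpa using hu
        have := hs (Finset.mem_filter.2 ⟨Finset.mem_univ i, this⟩)
        simp [hb] at this
    · refine absurd h1 (Finset.card_lt_card ⟨fun a ha => ?_, fun hs => ?_⟩).ne'
      · simp only [Finset.mem_filter, Finset.mem_univ, true_and] at ha ⊢
        by_contra h2
        exact h2 ((hne a (by rw [ha]; exact h2)).trans hb)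
      · have := hs (Finset.mem_filter.2 ⟨Finset.mem_univ i, hb⟩)
        simp only [Finset.mem_filter, Finset.mem_univ, true_and] at this
        exact hu (hb.trans this.symm)
  obtain ⟨j, hj1, hj2⟩ := hv
  rw [← hF η (x, i) (x, j) rfl]
  refine ih _ ?_ _ rfl fun y => by rw [dn_swap η (u := (x, i)) (v := (x, j)) rfl, hd]
  rw [← hm]
  refine Finset.card_lt_card ⟨fun a ha => ?_, fun hs => ?_⟩
  · simp only [Finset.mem_filter, Finset.mem_univ, true_and, Function.comp_apply] at ha ⊢
    by_cases h1 : a = (x, i)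
    · rw [h1]; exact hu
    by_cases h2 : a = (x, j)
    · rw [h2]; exact hj1
    rwa [Equiv.swap_apply_of_ne_of_ne h1 h2] at ha
  · have := hs (Finset.mem_filter.2 ⟨Finset.mem_univ (x, i), hu⟩)
    simp only [Finset.mem_filter, Finset.mem_univ, true_and, Function.comp_apply,
      Equiv.swap_apply_left] at this
    revert this hu hj2
    cases η (x, i) <;> cases η (x, j) <;> cases η' (x, i) <;> simp

/-- one-site amplitude. -/
noncomputable def u1 (n k : ℕ) (s : Fin (n + 1)) : ℝ :=
  if k + s = n then 1 / Real.sqrt (n.choose s) else 0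

/-- the isometry onto the symmetric subspace. -/
noncomputable def UU (X : Type) [Fintype X] [DecidableEq X] (n : ℕ) :
    Matrix (X × Fin n → Bool) (X → Fin (n + 1)) ℝ :=
  Matrix.of fun η σ => ∏ x, u1 n (dn η x) (σ x)

theorem choose_pos' (s : Fin (n + 1)) : (0 : ℝ) < n.choose s := by
  exact_mod_cast Nat.choose_pos (Nat.le_of_lt_succ s.2)

theorem sum_u1 (s t : Fin (n + 1)) :
    ∑ f : Fin n → Bool, u1 n (cnt f) s * u1 n (cnt f) t = if s = t then 1 else 0 := by
  split_ifs with h
  · subst h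
    have hs := Nat.le_of_lt_succ s.2
    have : ∀ f : Fin n → Bool, u1 n (cnt f) s * u1 n (cnt f) s =
        if cnt f = n - s then 1 / (n.choose s : ℝ) else 0 := fun f => by
      unfold u1
      by_cases h : cnt f + s = n
      · rw [if_pos h, if_pos (by omega), div_mul_div_comm, one_mul,
          Real.mul_self_sqrt (choose_pos' s).le]
      · rw [if_neg h, if_neg (by omega), zero_mul]
    simp only [this]
    rw [← Finset.sum_filter, Finset.sum_const, card_cnt, Nat.choose_symm hs, nsmul_eq_mul,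
      mul_one_div_cancel (choose_pos' s).ne']
  · refine Finset.sum_eq_zero fun f _ => ?_
    unfold u1
    split_ifs with h1 h2
    · exact absurd (Fin.ext (by omega)) h
    all_goals simp

theorem UU_iso : (UU X n)ᵀ * UU X n = 1 := by
  ext σ τ
  simp only [Matrix.mul_apply, Matrix.transpose_apply, UU, Matrix.of_apply,
    ← Finset.prod_mul_distrib]
  rw [sum_dn fun x k => u1 n k (σ x) * u1 n k (τ x)]
  simp only [sum_u1, Matrix.one_apply]
  rw [Finset.prod_ite_zero]
  simp [funext_iff]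

theorem swp_UU {u v : X × Fin n} (h : u.1 = v.1) : swp u v * UU X n = UU X n := by
  ext η σ
  simp only [swp_mul_apply, UU, Matrix.of_apply, dn_swap η h]

/-- `U Uᵀ` fixes the symmetric vectors. -/
theorem UU_proj (Q : BOp (X × Fin n)) (hQ : ∀ u v, u.1 = v.1 → swp u v * Q = Q) :
    UU X n * ((UU X n)ᵀ * Q) = Q := by
  ext η τ
  have hF : ∀ η', (∀ x, dn η' x = dn η x) → Q η' τ = Q η τ := fun η' h =>
    eq_of_dn (fun ρ => Q ρ τ) (fun ρ u v huv => by rw [← swp_mul_apply u v Q, hQ u v huv]) η _ η' rfl h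
  set σ0 : X → Fin (n + 1) := fun x => ⟨n - dn η x, by omega⟩ with hσ0
  have hz : ∀ (η' : X × Fin n → Bool) (σ : X → Fin (n + 1)), UU X n η' σ ≠ 0 →
      ∀ x, dn η' x + σ x = n := fun η' σ h x => by
    by_contra hx
    exact h (Finset.prod_eq_zero (Finset.mem_univ x) (if_neg hx))
  rw [Matrix.mul_apply, Finset.sum_eq_single σ0]
  · rw [Matrix.mul_apply, Finset.mul_sum]
    have h1 : ∑ η', UU X n η' σ0 * UU X n η' σ0 = 1 := by
      simpa [Matrix.mul_apply] using congrFun (congrFun (UU_iso (X := X) (n := n)) σ0) σ0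
    rw [← one_mul (Q η τ), ← h1, Finset.sum_mul]
    refine Finset.sum_congr rfl fun η' _ => ?_
    rw [Matrix.transpose_apply]
    by_cases h : UU X n η' σ0 = 0
    · simp [h]
    · have hd : ∀ x, dn η' x = dn η x := fun x => by
        have h2 := hz η' σ0 h x
        have h3 := dn_le η x
        simp only [hσ0] at h2
        omega
      have : UU X n η σ0 = UU X n η' σ0 := by simp only [UU, Matrix.of_apply, hd]
      rw [hF η' hd, this, mul_assoc]
  · intro σ _ hσ
    rw [mul_eq_zero]; left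
    by_contra h
    refine hσ (funext fun x => Fin.ext ?_)
    have := hz η σ h x
    simp only [hσ0]
    omega
  · simp

theorem UU_sym : ∃ w : List ((X × Fin n) × (X × Fin n) × ℝ), (∀ q ∈ w, 0 ≤ q.2.2 ∧ q.2.2 ≤ 1) ∧
    UU X n * (UU X n)ᵀ = (w.map fun q => step q.1 q.2.1 q.2.2).prod := by
  obtain ⟨w, hw, hQ⟩ := exists_sym (Prod.fst : X × Fin n → X) Finset.univ
  refine ⟨w, fun q hq => (hw q hq).1, ?_⟩
  have h1 : (UU X n)ᵀ * wp w = (UU X n)ᵀ := mul_wp _ w fun q hq => by
    rw [← swp_transpose, ← Matrix.transpose_mul, swp_UU (hw q hq).2.2.2]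
  rw [← h1]
  exact UU_proj _ fun u v h => (hQ u (Finset.mem_univ _) v (Finset.mem_univ _) h).1

/-! ### intertwining -/

theorem sqrt_key {a b c0 c1 : ℝ} (hb : 0 ≤ b) (ha : 0 ≤ a) (h0 : 0 < c0) (h1 : 0 < c1)
    (h : c1 * b = c0 * a) : 1 / Real.sqrt c1 * Real.sqrt (a * b) = b * (1 / Real.sqrt c0) := by
  have e : Real.sqrt (a * b) * Real.sqrt c0 = b * Real.sqrt c1 := by
    rw [← Real.sqrt_mul (mul_nonneg ha hb), show a * b * c0 = b * b * c1 by linear_combination -b * h,
      Real.sqrt_mul (mul_nonneg hb hb), Real.sqrt_mul_self hb]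
  have := Real.sqrt_pos.2 h0
  have := Real.sqrt_pos.2 h1
  field_simp
  linarith

theorem choose_key {i : ℕ} (hi : i < n) :
    (n.choose (i + 1) : ℝ) * ((i : ℝ) + 1) = (n.choose i : ℝ) * ((n : ℝ) - i) := by
  have := Nat.choose_succ_right_eq n i
  rw [← Nat.cast_sub hi.le]
  exact_mod_cast this

theorem u1_plus (k : ℕ) (s : Fin (n + 1)) :
    ∑ i, spinPlus n i s * (u1 n k i : ℂ) = ((((n : ℝ) - k) * u1 n (k + 1) s : ℝ) : ℂ) := by
  by_cases h : k + 1 + s = n
  · rw [Finset.sum_eq_single (⟨s + 1, by omega⟩ : Fin (n + 1))]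
    · rw [spinPlus_apply, if_pos rfl, ← Complex.ofReal_mul, u1, u1, if_pos h,
        if_pos (by simp only; omega), mul_comm]
      have hs : (s : ℕ) < n := by omega
      have hn : (n : ℝ) - k = (s : ℕ) + 1 := by
        have : (k : ℝ) + 1 + (s : ℕ) = n := by exact_mod_cast h
        linarith
      rw [hn, sqrt_key (by positivity) (sub_nonneg.2 (by exact_mod_cast hs.le)) (choose_pos' s)
        (choose_pos' ⟨s + 1, by omega⟩) (choose_key hs)]
    · intro i _ hi
      rw [spinPlus_apply, if_neg (fun e => hi (Fin.ext e)), zero_mul]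
    · simp
  · rw [u1, if_neg h, mul_zero, Complex.ofReal_zero]
    refine Finset.sum_eq_zero fun i _ => ?_
    rw [spinPlus_apply, u1]
    split_ifs with h1 h2
    · omega
    all_goals simp

theorem u1_minus {k : ℕ} (hk : k ≤ n) (s : Fin (n + 1)) :
    ∑ i, spinMinus n i s * (u1 n k i : ℂ) = (((k : ℝ) * u1 n (k - 1) s : ℝ) : ℂ) := by
  rw [Finset.sum_eq_single (⟨n - k, by omega⟩ : Fin (n + 1))]
  · rw [spinMinus_eq, Matrix.transpose_apply, spinPlus_apply, u1, u1,
      if_pos (show k + (n - k) = n by omega)]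
    by_cases h : (s : ℕ) = n - k + 1
    · have hs := s.2
      rw [if_pos h, if_pos (by omega), ← Complex.ofReal_mul, mul_comm, mul_comm ((n : ℝ) - _), h]
      have hi : n - k < n := by omega
      have hn : (k : ℝ) = n - ((n - k : ℕ) : ℝ) := by rw [Nat.cast_sub hk]; ring
      congr 1
      rw [sqrt_key (sub_nonneg.2 (by exact_mod_cast hi.le)) (by positivity)
        (choose_pos' ⟨n - k + 1, by omega⟩) (choose_pos' ⟨n - k, by omega⟩) (choose_key hi).symm,
        ← hn]
    · rw [if_neg h, zero_mul]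
      rcases Nat.eq_zero_or_pos k with rfl | h0
      · simp
      · rw [if_neg (by omega)]; simp
  · intro i _ hi
    rw [u1, if_neg (fun e => hi (Fin.ext (by simp only; omega)))]; simp
  · simp

/-- the factors of the other sites. -/
noncomputable def rest (η : X × Fin n → Bool) (σ : X → Fin (n + 1)) (x : X) : ℝ :=
  ∏ y ∈ Finset.univ.erase x, u1 n (dn η y) (σ y)

theorem UU_upd_right (η : X × Fin n → Bool) (σ : X → Fin (n + 1)) (x : X) (s : Fin (n + 1)) :
    UU X n η (Function.update σ x s) = u1 n (dn η x) s * rest η σ x := by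
  simp only [UU, Matrix.of_apply]
  rw [← Finset.mul_prod_erase _ _ (Finset.mem_univ x), Function.update_self]
  congr 1
  exact Finset.prod_congr rfl fun y hy => by rw [Function.update_of_ne (Finset.ne_of_mem_erase hy)]

theorem UU_upd_left (η : X × Fin n → Bool) (σ : X → Fin (n + 1)) (x : X) (i : Fin n) (b : Bool) :
    UU X n (Function.update η (x, i) b) σ =
      u1 n (dn (Function.update η (x, i) b) x) (σ x) * rest η σ x := by
  simp only [UU, Matrix.of_apply]
  rw [← Finset.mul_prod_erase _ _ (Finset.mem_univ x)]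
  congr 1
  exact Finset.prod_congr rfl fun y hy => by rw [dn_update_ne η (Finset.ne_of_mem_erase hy)]

theorem UU_mul_site (x : X) (A : Matrix (Fin (n + 1)) (Fin (n + 1)) ℂ) (η : X × Fin n → Bool)
    (σ : X → Fin (n + 1)) : ((UU X n).map ((↑) : ℝ → ℂ) * siteOpOn x A) η σ =
      (∑ i, A i (σ x) * (u1 n (dn η x) i : ℂ)) * (rest η σ x : ℂ) := by
  rw [← Matrix.transpose_apply ((UU X n).map ((↑) : ℝ → ℂ) * siteOpOn x A), Matrix.transpose_mul,
    site_transpose, site_mul_apply, Finset.sum_mul]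
  refine Finset.sum_congr rfl fun i _ => ?_
  rw [Matrix.transpose_apply, Matrix.transpose_apply, Matrix.map_apply, UU_upd_right,
    Complex.ofReal_mul, mul_assoc]

theorem map_mul_UU (M : BOp (X × Fin n)) :
    M.map ((↑) : ℝ → ℂ) * (UU X n).map ((↑) : ℝ → ℂ) = (M * UU X n).map ((↑) : ℝ → ℂ) :=
  (Matrix.map_mul (f := Complex.ofRealHom)).symm

theorem UU_Sp (x : X) : (UU X n).map ((↑) : ℝ → ℂ) * Sp n x =
    (∑ i : Fin n, an (x, i)).map ((↑) : ℝ → ℂ) * (UU X n).map ((↑) : ℝ → ℂ) := by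
  ext η σ
  rw [map_mul_UU, Sp, UU_mul_site, u1_plus, Matrix.map_apply, ← Complex.ofReal_mul,
    Matrix.sum_mul, Matrix.sum_apply, mul_assoc, ← sum_false]
  congr 1
  refine Finset.sum_congr rfl fun i _ => ?_
  rw [an_mul_apply]
  split_ifs with h
  · rw [UU_upd_left, dn_update_true η x i h]
  · rfl

theorem UU_Sm (x : X) : (UU X n).map ((↑) : ℝ → ℂ) * Sm n x =
    (∑ i : Fin n, cr (x, i)).map ((↑) : ℝ → ℂ) * (UU X n).map ((↑) : ℝ → ℂ) := by
  ext η σ
  rw [map_mul_UU, Sm, UU_mul_site, u1_minus (dn_le η x), Matrix.map_apply, ← Complex.ofReal_mul,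
    Matrix.sum_mul, Matrix.sum_apply, mul_assoc, ← sum_true]
  congr 1
  refine Finset.sum_congr rfl fun i _ => ?_
  rw [cr_mul_apply]
  split_ifs with h
  · rw [UU_upd_left, dn_update_false η x i h]
  · rfl

theorem sum_sz (x : X) : (∑ i : Fin n, sz (x, i) : BOp (X × Fin n)) =
    Matrix.diagonal fun η => (n : ℝ) / 2 - dn η x := by
  ext η τ
  rw [Matrix.sum_apply]
  by_cases h : η = τ
  · subst h
    have : ∀ i, sz (x, i) η η = 1 / 2 - if η (x, i) = true then (1 : ℝ) else 0 := fun i => by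
      rw [sz, Matrix.diagonal_apply_eq]; split_ifs <;> norm_num
    simp only [this, Finset.sum_sub_distrib, sum_true]
    simp; ring
  · simp [sz, h]

theorem UU_Sz (x : X) : (UU X n).map ((↑) : ℝ → ℂ) * Sz n x =
    (∑ i : Fin n, sz (x, i)).map ((↑) : ℝ → ℂ) * (UU X n).map ((↑) : ℝ → ℂ) := by
  ext η σ
  rw [map_mul_UU, Sz_eq, Matrix.mul_diagonal, sum_sz, Matrix.map_apply, Matrix.map_apply,
    Matrix.diagonal_mul, ← Complex.ofReal_mul, mul_comm]
  congr 1
  by_cases h : dn η x + σ x = n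
  · have : (n : ℝ) = dn η x + (σ x : ℕ) := by exact_mod_cast h.symm
    congr 1
    unfold levelM
    linarith
  · have : UU X n η σ = 0 := Finset.prod_eq_zero (Finset.mem_univ x) (if_neg h)
    simp [this]

theorem cnt_eq (η : X × Fin n → Bool) : (cnt η : ℝ) = ∑ x, (dn η x : ℝ) := by
  have : (cnt η : ℝ) = ∑ u, if η u = true then (1 : ℝ) else 0 := by
    rw [← Finset.sum_filter, Finset.sum_const, nsmul_eq_mul, mul_one]; rfl
  rw [this, Fintype.sum_prod_type]
  simp only [sum_true, mul_one]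

theorem real_ham {J : X → X → ℝ} (hJ : Ferro J) (h : ℝ) :
    -(1 / 2 : ℝ) • ∑ x : X, ∑ y : X, J x y •
      ((∑ i : Fin n, sz (x, i)) * (∑ i : Fin n, sz (y, i)) + (1 / 2 : ℝ) •
        ((∑ i : Fin n, an (x, i)) * (∑ i : Fin n, cr (y, i)) +
          (∑ i : Fin n, cr (x, i)) * (∑ i : Fin n, an (y, i)))) -
        h • ∑ x : X, ∑ i : Fin n, sz (x, i) =
      (-(∑ u : X × Fin n, ∑ v : X × Fin n, J u.1 v.1 / 8) - h * (Fintype.card X * (n / 2))) •
        (1 : BOp (X × Fin n)) - gen (fun u v : X × Fin n => J u.1 v.1 / 2) h := by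
  have h1 : ∑ x : X, ∑ i : Fin n, (sz (x, i) : BOp (X × Fin n)) =
      ((Fintype.card X : ℝ) * (n / 2)) • (1 : BOp (X × Fin n)) -
        Matrix.diagonal fun σ => (cnt σ : ℝ) := by
    simp only [sum_sz]
    ext η τ
    rw [Matrix.sum_apply]
    by_cases e : η = τ
    · subst e; simp [cnt_eq, Finset.sum_sub_distrib]
    · simp [e]
  have h2 : ∑ x : X, ∑ y : X, J x y •
      ((∑ i : Fin n, sz (x, i)) * (∑ i : Fin n, sz (y, i)) + (1 / 2 : ℝ) •
        ((∑ i : Fin n, an (x, i)) * (∑ i : Fin n, cr (y, i)) +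
          (∑ i : Fin n, cr (x, i)) * (∑ i : Fin n, an (y, i)))) =
      ∑ u : X × Fin n, ∑ v : X × Fin n, J u.1 v.1 •
        ((1 / 2 : ℝ) • swp u v - (1 / 4 : ℝ) • (1 : BOp (X × Fin n))) := by
    rw [Fintype.sum_prod_type]
    refine Finset.sum_congr rfl fun x _ => ?_
    rw [Finset.sum_comm, Fintype.sum_prod_type]
    refine Finset.sum_congr rfl fun y _ => ?_
    by_cases e : x = y
    · subst e; simp [hJ.diag]
    rw [Finset.sum_comm]
    simp only [Finset.sum_mul_sum, ← Finset.sum_add_distrib, Finset.smul_sum]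
    refine Finset.sum_congr rfl fun i _ => Finset.sum_congr rfl fun j _ => ?_
    rw [dot_eq (by simp [e])]
  rw [h1, h2, gen, sub_smul, neg_smul (∑ u : X × Fin n, _), Finset.sum_smul, Finset.smul_sum]
  have h3 : ∀ u : X × Fin n, -(1 / 2 : ℝ) • ∑ v : X × Fin n, J u.1 v.1 •
        ((1 / 2 : ℝ) • swp u v - (1 / 4 : ℝ) • (1 : BOp (X × Fin n))) =
      -((∑ v : X × Fin n, J u.1 v.1 / 8) • (1 : BOp (X × Fin n))) -
        ∑ v : X × Fin n, (J u.1 v.1 / 2 / 2) • (swp u v - 1) := fun u => by
    rw [Finset.sum_smul, Finset.smul_sum, ← Finset.sum_neg_distrib, ← Finset.sum_sub_distrib]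
    refine Finset.sum_congr rfl fun v _ => ?_
    module
  simp only [h3, Finset.sum_sub_distrib, Finset.sum_neg_distrib]
  module

end SL

open SL in
theorem slot : SlotStmt := by
  intro X _ _ n J h _ hJ
  obtain ⟨w, hw, hU⟩ := UU_sym (X := X) (n := n)
  refine ⟨UU X n, -(∑ u : X × Fin n, ∑ v : X × Fin n, J u.1 v.1 / 8) - h * (Fintype.card X * (n / 2)),
    w, hw, UU_iso, hU, UU_Sp, UU_Sm, ?_⟩
  rw [← real_ham hJ h]
  let φ : BOp (X × Fin n) →ₐ[ℝ] Matrix (X × Fin n → Bool) (X × Fin n → Bool) ℂ :=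
    Complex.ofRealAm.mapMatrix
  have hφ : ∀ M : BOp (X × Fin n), M.map ((↑) : ℝ → ℂ) = φ M := fun M => rfl
  have e1 : (1 / 2 : ℂ) = ((1 / 2 : ℝ) : ℂ) := by push_cast; rfl
  have hZ := UU_Sz (X := X) (n := n)
  have hP := UU_Sp (X := X) (n := n)
  have hM := UU_Sm (X := X) (n := n)
  simp only [hφ] at hZ hP hM ⊢
  have hD : ∀ x y : X, (UU X n).map ((↑) : ℝ → ℂ) * spinDotOn n x y =
      φ ((∑ i : Fin n, sz (x, i)) * (∑ i : Fin n, sz (y, i)) + (1 / 2 : ℝ) •
        ((∑ i : Fin n, an (x, i)) * (∑ i : Fin n, cr (y, i)) +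
          (∑ i : Fin n, cr (x, i)) * (∑ i : Fin n, an (y, i)))) * (UU X n).map ((↑) : ℝ → ℂ) := by
    intro x y
    change (UU X n).map ((↑) : ℝ → ℂ) * (Sz n x * Sz n y + (1 / 2 : ℂ) •
      (Sp n x * Sm n y + Sm n x * Sp n y)) = _
    rw [map_add, map_smul, map_add, map_mul, map_mul, map_mul, e1, Complex.coe_smul]
    simp only [Matrix.mul_add, Matrix.add_mul, Matrix.mul_smul, Matrix.smul_mul]
    rw [← Matrix.mul_assoc, ← Matrix.mul_assoc, ← Matrix.mul_assoc, hZ, hP, hM,
      Matrix.mul_assoc, Matrix.mul_assoc, Matrix.mul_assoc, hZ, hP, hM]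
    simp only [Matrix.mul_assoc]
  rw [hamF, ham, magn, e1, ← Complex.ofReal_neg, Complex.coe_smul, Complex.coe_smul, map_sub,
    map_smul, map_smul, map_sum, map_sum]
  simp only [Matrix.mul_sub, Matrix.sub_mul, Matrix.mul_smul, Matrix.smul_mul, Matrix.mul_sum,
    Matrix.sum_mul, hZ, Complex.coe_smul, hD]
  congr 2
  refine Finset.sum_congr rfl fun x _ => ?_
  rw [map_sum, Matrix.sum_mul]
  refine Finset.sum_congr rfl fun y _ => ?_
  rw [map_smul φ (J x y), Matrix.smul_mul]

end Crest.Agent.N337.Slot
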